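import Vale.Agent.P277.H29.CY.Semi

/-!
# P277, T5: twisting a flip by a semiample divisor
-/

set_option linter.unusedSectionVars false

open scoped Manifold ContDiff Topology
open Vale.Agent.P272.K Vale.Agent.P285.H281.FD Vale.Agent.P267.H175 Set Filter Metric

noncomputable section

namespace Vale.Agent.P277.H29.CY

open Vale.Agent.P277 Vale.Agent.P277.T2 Vale.Agent.P277.T3 Vale.Agent.P277.H615

variable {X Z X' : CSp} {f : X.pt → Z.pt} {f' : X'.pt → Z.pt} {A : Set Z.pt} {K : ℕ}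
  {L : Fin K → Bd X.pt} {L' : Fin K → Bd X'.pt}

/-- `θ` is a limit of rational combinations with a power which is relatively generated -/
def LimGen (X Z : CSp) (f : X.pt → Z.pt) (L : Fin K → Bd X.pt) (c : Fin K → ℕ)
    (θ : Fin K → ℝ) : Prop :=
  ∀ δ : ℝ, 0 < δ → ∃ (n : Fin K → ℤ) (w : ℕ), 1 ≤ w ∧ RelGen X Z f (Bd.lin L n) ∧
    ∀ e, |(n e * c e : ℝ) / w - θ e| < δ

theorem LimGen.zero {c : Fin K → ℕ} : LimGen X Z f L c 0 := by
  intro δ hδ
  refine ⟨0, 1, le_rfl, RelGen.zero, fun e => ?_⟩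
  simpa using hδ

theorem LimGen.add (hL : ∀ e, IsLBx X (L e)) {c : Fin K → ℕ} {x y : Fin K → ℝ}
    (hx : LimGen X Z f L c x) (hy : LimGen X Z f L c y) : LimGen X Z f L c (x + y) := by
  intro δ hδ
  obtain ⟨n, w, hw, hn, hx⟩ := hx (δ / 2) (by positivity)
  obtain ⟨n', w', hw', hn', hy⟩ := hy (δ / 2) (by positivity)
  refine ⟨_, w * w', Nat.mul_pos hw hw', RelGen.add hL hn hn' w' w, fun e => ?_⟩
  have hw0 : (w : ℝ) ≠ 0 := by exact_mod_cast (Nat.one_le_iff_ne_zero.1 hw)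
  have hw0' : (w' : ℝ) ≠ 0 := by exact_mod_cast (Nat.one_le_iff_ne_zero.1 hw')
  have e1 : (((w' * n e + w * n' e : ℤ) * c e : ℝ)) / ((w * w' : ℕ) : ℝ) - (x + y) e =
      ((n e * c e : ℝ) / w - x e) + ((n' e * c e : ℝ) / w' - y e) := by
    rw [Pi.add_apply]
    push_cast
    field_simp
    ring
  rw [e1]
  calc _ ≤ |(n e * c e : ℝ) / w - x e| + |(n' e * c e : ℝ) / w' - y e| := abs_add_le _ _
    _ < δ / 2 + δ / 2 := add_lt_add (hx e) (hy e)
    _ = δ := by ring

theorem LimGen.smul (hL : ∀ e, IsLBx X (L e)) {c : Fin K → ℕ} {x : Fin K → ℝ}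
    (hx : LimGen X Z f L c x) {a : ℝ} (ha : 0 ≤ a) : LimGen X Z f L c (a • x) := by
  intro δ hδ
  obtain ⟨n, w, hw, hn, hx⟩ := hx (δ / (2 * (|a| + 1))) (by positivity)
  obtain ⟨C, hC, hC'⟩ : ∃ C : ℝ, 0 < C ∧ ∀ e, |(n e * c e : ℝ) / w| ≤ C := by
    refine ⟨∑ e, |(n e * c e : ℝ) / w| + 1, by positivity, fun e => ?_⟩
    have := Finset.single_le_sum (f := fun e => |(n e * c e : ℝ) / w|) (fun e _ => abs_nonneg _)
      (Finset.mem_univ e)
    linarith
  obtain ⟨q, hq1, hq2⟩ := exists_rat_btwn (show a < a + δ / (2 * C) by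
    have : 0 < δ / (2 * C) := by positivity
    linarith)
  have hq : |(q : ℝ) - a| < δ / (2 * C) := by
    rw [abs_lt]
    have : 0 < δ / (2 * C) := by positivity
    constructor <;> linarith
  have hq0 : (0 : ℝ) < q := ha.trans_lt hq1
  have hnum : 0 < q.num := by
    have : (0 : ℚ) < q := by exact_mod_cast hq0
    exact Rat.num_pos.2 this
  obtain ⟨u, hu⟩ := Int.eq_ofNat_of_zero_le hnum.le
  refine ⟨_, q.den * w, Nat.mul_pos q.pos hw, RelGen.add hL hn (RelGen.zero (L := L)) u 0,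
    fun e => ?_⟩
  have hw0 : (w : ℝ) ≠ 0 := by exact_mod_cast (Nat.one_le_iff_ne_zero.1 hw)
  have hd0 : (q.den : ℝ) ≠ 0 := by exact_mod_cast q.den_ne_zero
  have hqe : (q : ℝ) = u / q.den := by
    have h1 : (q : ℝ) = q.num / q.den := by exact_mod_cast (Rat.num_div_den q).symm
    rw [h1, hu]
    rfl
  have e1 : ((((u : ℤ) * n e + ((0 : ℕ) : ℤ) * (0 : Fin K → ℤ) e : ℤ) * c e : ℝ)) /
      ((q.den * w : ℕ) : ℝ) - (a • x) e =
      ((q : ℝ) - a) * ((n e * c e : ℝ) / w) + a * ((n e * c e : ℝ) / w - x e) := by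
    simp only [Pi.smul_apply, smul_eq_mul, Pi.zero_apply]
    rw [hqe]
    push_cast
    field_simp
    ring
  rw [e1]
  have h1 : |((q : ℝ) - a) * ((n e * c e : ℝ) / w)| ≤ |(q : ℝ) - a| * C := by
    rw [abs_mul]
    exact mul_le_mul_of_nonneg_left (hC' e) (abs_nonneg _)
  have h2 : |(q : ℝ) - a| * C < δ / 2 := by
    have := mul_lt_mul_of_pos_right hq hC
    have e2 : δ / (2 * C) * C = δ / 2 := by field_simp
    rwa [e2] at this
  have h3 : |a * ((n e * c e : ℝ) / w - x e)| ≤ (|a| + 1) * (δ / (2 * (|a| + 1))) := by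
    rw [abs_mul]
    exact mul_le_mul (by linarith [abs_nonneg a]) (hx e).le (abs_nonneg _) (by positivity)
  have h4 : (|a| + 1) * (δ / (2 * (|a| + 1))) = δ / 2 := by
    have : |a| + 1 ≠ 0 := by positivity
    field_simp
  calc _ ≤ |((q : ℝ) - a) * ((n e * c e : ℝ) / w)| + |a * ((n e * c e : ℝ) / w - x e)| :=
        abs_add_le _ _
    _ < δ / 2 + δ / 2 := by linarith
    _ = δ := by ring

theorem IsRSemi.limGen (hL : ∀ e, IsLBx X (L e)) {c : Fin K → ℕ} {θ : Fin K → ℝ}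
    (h : IsRSemi X Z f L c θ) : LimGen X Z f L c θ := by
  obtain ⟨b, n, x, hx, hn, hθ⟩ := h
  have e1 : θ = ∑ a, x a • fun e => (n a e * c e : ℝ) := by
    funext e
    rw [hθ e, Finset.sum_apply]
    rfl
  rw [e1]
  refine Finset.sum_induction (fun a => x a • fun e => (n a e * c e : ℝ)) (LimGen X Z f L c)
    (fun x y hx hy => hx.add hL hy) LimGen.zero fun a _ => ?_
  refine LimGen.smul hL (fun δ hδ => ?_) (hx a)
  refine ⟨n a, 1, le_rfl, hn a, fun e => ?_⟩
  simpa using hδ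

/-- the ampleness condition of `IsFlipR`, for a sign `u` -/
theorem ample_semi (hL : ∀ e, IsLBx X (L e)) {c : Fin K → ℕ} {ρ θ : Fin K → ℝ} {u : ℤ}
    (hu : u * u = 1) (hθ : LimGen X Z f L c fun e => u * θ e) {lam : ℝ} (hlam : 0 < lam)
    (h : ∃ ε > 0, ∀ (n : Fin K → ℤ) (d : ℕ), 1 ≤ d → (∀ e, |(n e * c e : ℝ) / d - ρ e| < ε) →
      RelAmple X Z f (Bd.lin L (u • n))) :
    ∃ ε > 0, ∀ (n : Fin K → ℤ) (d : ℕ), 1 ≤ d →
      (∀ e, |(n e * c e : ℝ) / d - (lam * ρ e + θ e)| < ε) →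
      RelAmple X Z f (Bd.lin L (u • n)) := by
  obtain ⟨ε, hε, h⟩ := h
  have huR : (u : ℝ) * u = 1 := by exact_mod_cast hu
  have hua : |(u : ℝ)| = 1 := by
    have h1 : |(u : ℝ)| * |(u : ℝ)| = 1 := by rw [← abs_mul, huR, abs_one]
    nlinarith [abs_nonneg (u : ℝ)]
  -- a bound for `ρ`
  obtain ⟨C, hC, hC'⟩ : ∃ C : ℝ, 0 < C ∧ ∀ e, |ρ e| ≤ C := by
    refine ⟨∑ e, |ρ e| + 1, by positivity, fun e => ?_⟩
    have := Finset.single_le_sum (f := fun e => |ρ e|) (fun e _ => abs_nonneg _)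
      (Finset.mem_univ e)
    linarith
  set η : ℝ := lam * ε / 16 with hη
  have hη0 : 0 < η := by positivity
  -- a rational approximation of `lam`
  obtain ⟨q, hq1, hq2⟩ := exists_rat_btwn (show lam < lam + min (η / C) lam by
    have : 0 < min (η / C) lam := lt_min (by positivity) hlam
    linarith)
  have hq0 : (0 : ℝ) < q := hlam.trans hq1
  have hqa : |(q : ℝ) - lam| ≤ η / C := by
    rw [abs_of_pos (by linarith)]
    have := min_le_left (η / C) lam
    linarith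
  obtain ⟨n₀, w, hw, hn₀, hθ'⟩ := hθ η hη0
  refine ⟨η, hη0, fun n d hd hn => ?_⟩
  -- the numerator and the denominator of `q`
  have hnum : 0 < q.num := by
    have : (0 : ℚ) < q := by exact_mod_cast hq0
    exact Rat.num_pos.2 this
  obtain ⟨a, ha⟩ := Int.eq_ofNat_of_zero_le hnum.le
  have ha1 : 1 ≤ a := by
    have : (0 : ℤ) < a := ha ▸ hnum
    omega
  set b : ℕ := q.den with hb
  have hb1 : 1 ≤ b := q.pos
  have hqe : (q : ℝ) = a / b := by
    have h1 : (q : ℝ) = q.num / q.den := by exact_mod_cast (Rat.num_div_den q).symm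
    rw [h1, ha]
    rfl
  have ha0 : (a : ℝ) ≠ 0 := by exact_mod_cast (Nat.one_le_iff_ne_zero.1 ha1)
  have hb0 : (b : ℝ) ≠ 0 := by exact_mod_cast (Nat.one_le_iff_ne_zero.1 hb1)
  have hw0 : (w : ℝ) ≠ 0 := by exact_mod_cast (Nat.one_le_iff_ne_zero.1 hw)
  have hd0 : (d : ℝ) ≠ 0 := by exact_mod_cast (Nat.one_le_iff_ne_zero.1 hd)
  -- the new combination
  set n' : Fin K → ℤ := fun e => b * w * n e - u * (b * d * n₀ e) with hn'
  have key : RelAmple X Z f (Bd.lin L (u • n')) := by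
    refine h n' (a * d * w) (Nat.mul_pos (Nat.mul_pos ha1 hd) hw) fun e => ?_
    have e0 : |u * (n₀ e * c e : ℝ) / w - θ e| < η := by
      have h1 := hθ' e
      have h2 : u * (n₀ e * c e : ℝ) / w - θ e = u * ((n₀ e * c e : ℝ) / w - u * θ e) := by
        linear_combination (θ e) * huR
      rw [h2, abs_mul, hua, one_mul]
      exact h1
    have e1 : (n' e * c e : ℝ) / ((a * d * w : ℕ) : ℝ) - ρ e =
        (((n e * c e : ℝ) / d - (lam * ρ e + θ e)) - (u * (n₀ e * c e : ℝ) / w - θ e) -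
          ((q : ℝ) - lam) * ρ e) / q := by
      rw [hqe]
      simp only [hn']
      push_cast
      field_simp
      ring
    rw [e1, abs_div, abs_of_pos hq0, div_lt_iff₀ hq0]
    have h1 : |((q : ℝ) - lam) * ρ e| ≤ η := by
      rw [abs_mul]
      calc _ ≤ η / C * C := mul_le_mul hqa (hC' e) (abs_nonneg _) (by positivity)
        _ = η := by field_simp
    have h2 := hn e
    have h4 : |((n e * c e : ℝ) / d - (lam * ρ e + θ e)) - (u * (n₀ e * c e : ℝ) / w - θ e) -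
        ((q : ℝ) - lam) * ρ e| ≤ |(n e * c e : ℝ) / d - (lam * ρ e + θ e)| +
        |u * (n₀ e * c e : ℝ) / w - θ e| + |((q : ℝ) - lam) * ρ e| :=
      (abs_sub _ _).trans (add_le_add_left (abs_sub _ _) _)
    have h5 : lam * ε < ε * q := by
      rw [mul_comm]
      exact mul_lt_mul_of_pos_left hq1 hε
    have h6 : 16 * η = lam * ε := by rw [hη]; ring
    linarith
  refine relAmple_gen hL (n := u • n') (p := u • n) (m := n₀) (w := b * w) (a := 1) (b := b * d)
    (Nat.mul_pos hb1 hw) le_rfl (fun e => ?_) key hn₀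
  show ((b * w : ℕ) : ℤ) * (u * n e) = ((1 : ℕ) : ℤ) * (u * (b * w * n e - u * (b * d * n₀ e))) +
    ((b * d : ℕ) : ℤ) * n₀ e
  push_cast
  linear_combination (b * d * n₀ e : ℤ) * hu

/-- Twisting a flip by a divisor which is nonpositive for the flip. -/
theorem isFlipR_semi {c c' : Fin K → ℕ} {ρ θ : Fin K → ℝ}
    (h : IsFlipR X Z X' f f' A L L' c c' ρ) (hθ : LimGen X Z f L c fun e => -θ e)
    (hθ' : LimGen X' Z f' L' c' θ) {lam : ℝ} (hlam : 0 < lam) :
    IsFlipR X Z X' f f' A L L' c c' (fun e => lam * ρ e + θ e) where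
  normal := h.normal
  normalZ := h.normalZ
  normal' := h.normal'
  small := h.small
  small' := h.small'
  ninj := h.ninj
  ninj' := h.ninj'
  lb := h.lb
  lb' := h.lb'
  iso := h.iso
  ample := by
    have h1 := ample_semi (u := -1) h.lb (by norm_num) (ρ := ρ) (θ := θ) (c := c) (f := f)
      (by simpa using hθ) hlam (by
      obtain ⟨ε, hε, h2⟩ := h.ample
      refine ⟨ε, hε, fun n d hd hn => ?_⟩
      have h3 := h2 n d hd hn
      rwa [inv_lin, ← neg_one_smul ℤ n] at h3)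
    obtain ⟨ε, hε, h2⟩ := h1
    refine ⟨ε, hε, fun n d hd hn => ?_⟩
    rw [inv_lin, ← neg_one_smul ℤ n]
    exact h2 n d hd hn
  ample' := by
    have h1 := ample_semi (u := 1) h.lb' (by norm_num) (ρ := ρ) (θ := θ) (c := c') (f := f')
      (by simpa using hθ') hlam (by
      obtain ⟨ε, hε, h2⟩ := h.ample'
      refine ⟨ε, hε, fun n d hd hn => ?_⟩
      rw [one_smul]
      exact h2 n d hd hn)
    obtain ⟨ε, hε, h2⟩ := h1
    refine ⟨ε, hε, fun n d hd hn => ?_⟩
    have h3 := h2 n d hd hn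
    rwa [one_smul] at h3

end Vale.Agent.P277.H29.CY
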