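import Vale.Agent.P277.H29.CY.Fin3
import Vale.Agent.P277.Stmts22

/-!
# P277, T5 with (G) and (K), from T4 with (G) and (K)
-/

set_option linter.unusedSectionVars false

open scoped Manifold ContDiff Topology
open Vale.Agent.P272.K Vale.Agent.P285.H281.FD Vale.Agent.P267.H175 Set Filter Metric

noncomputable section

namespace Vale.Agent.P277.H29.CY

open Vale.Agent.P277 Vale.Agent.P277.T2 Vale.Agent.P277.T3 Vale.Agent.P277.H615

theorem tau_pos {K : ℕ} {ρ σ τ : Fin K → ℝ} (hρ : ∀ e, 0 ≤ ρ e) (hσ : ∀ e, 0 ≤ σ e)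
    (hρσ : ∀ e, 0 < ρ e + σ e) {t : ℝ} (h0 : 0 < t) (h1 : t < 1)
    (hτ : ∀ e, τ e = t * ρ e + (1 - t) * σ e) (e : Fin K) : 0 < τ e := by
  have h5 : 0 < 1 - t := by linarith
  have h6 := hρ e
  have h7 := hσ e
  have h8 := hρσ e
  rw [hτ]
  rcases h6.eq_or_lt with h9 | h9
  · have h10 : 0 < σ e := by linarith
    have := mul_pos h5 h10
    rw [← h9]
    linarith
  · have := mul_pos h0 h9
    have := mul_nonneg h5.le h7
    linarith

theorem tau_sum {K : ℕ} {ρ σ τ : Fin K → ℝ} {m : Fin K → ℕ} (hsum : ∑ e, ρ e * m e = 1)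
    (hsum' : ∑ e, σ e * m e = 1) {t : ℝ} (hτ : ∀ e, τ e = t * ρ e + (1 - t) * σ e) :
    ∑ e, τ e * m e = 1 := by
  have h6 : ∑ e, τ e * m e = t * (∑ e, ρ e * m e) + (1 - t) * ∑ e, σ e * m e := by
    rw [Finset.mul_sum, Finset.mul_sum, ← Finset.sum_add_distrib]
    refine Finset.sum_congr rfl fun e _ => ?_
    rw [hτ]
    ring
  rw [h6, hsum, hsum']
  ring

/-- (T5G) from (T4GF) -/
theorem stT5G_of (hT : StT4GF) : StT5G := by
  intro Y _ _ _ _ _ χ hχ k s M hM hnef m hm hm0 ρ σ hρ hσ hρσ hsum hsum' H _ _ _ _ _ _ ι sg hbd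
    hdisj W X Z r v p P G hres hne f f' A L c hc n hn hflip hσt t h0 h1 τ hτ h2 h3
  have e1 : (fun e => t * ρ e + (1 - t) * σ e) = τ := funext fun e => (hτ e).symm
  exact hT Y χ hχ k s M hM hnef m hm hm0 τ (tau_pos hρ hσ hρσ h0 h1 hτ) (tau_sum hsum hsum' hτ) H ι
    sg hbd hdisj W X Z r v p P G hres hne f f' A L c hc n hn
    (fun j => e1 ▸ flip_all hflip hσt h0 h1 j) h2 h3

/-- (T5K) from (T4KF) -/
theorem stT5K_of (hT : StT4KF) : StT5K := by
  intro Y _ _ _ _ _ χ hχ k s M hM hnef m hm hm0 ρ σ hρ hσ hρσ hsum hsum' H _ _ _ _ _ _ ι sg hbd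
    hdisj W X Z r v p P G hres hne f f' A L c hc n hn hflip hσt t h0 h1 τ hτ K h2 h3 h4 h5 h6
  have e1 : (fun e => t * ρ e + (1 - t) * σ e) = τ := funext fun e => (hτ e).symm
  exact hT Y χ hχ k s M hM hnef m hm hm0 τ (tau_pos hρ hσ hρσ h0 h1 hτ) (tau_sum hsum hsum' hτ) H ι
    sg hbd hdisj W X Z r v p P G hres hne f f' A L c hc n hn
    (fun j => e1 ▸ flip_all hflip hσt h0 h1 j) K h2 h3 h4 h5 h6

end Vale.Agent.P277.H29.CY
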