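import Vale.Agent.P277.Stmts19
import Vale.Agent.P277.H29.CY.Fin2

/-!
# P277, T5: ample plus semiample is ample
-/

set_option linter.unusedSectionVars false

open scoped Manifold ContDiff Topology
open Vale.Agent.P272.K Vale.Agent.P285.H281.FD Vale.Agent.P267.H175 Set Filter Metric

noncomputable section

namespace Vale.Agent.P277.H29.CY

open Vale.Agent.P277 Vale.Agent.P277.T2 Vale.Agent.P277.T3 Vale.Agent.P277.H615

variable {X Z X' : CSp} {f : X.pt → Z.pt} {f' : X'.pt → Z.pt} {A : Set Z.pt} {K : ℕ}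
  {L : Fin K → Bd X.pt} {L' : Fin K → Bd X'.pt}

/-- relative ampleness, for sections indexed by a finite type -/
theorem relAmple_of_fintype {L : Bd X.pt} (h : ∀ z, ∃ (V : Set Z.pt) (k : ℕ) (J : Type)
    (_ : Fintype J) (s : J → L.ι → X.pt → ℂ), IsOpen V ∧ z ∈ V ∧ 1 ≤ k ∧
    (∀ l, IsSecx X (f ⁻¹' V) (L.pow k) (s l)) ∧
    (∀ x i, f x ∈ V → x ∈ L.U i → ∃ l, s l i x ≠ 0) ∧
    (∀ x x' i j, f x ∈ V → f x' = f x → x' ≠ x → x ∈ L.U i → x' ∈ L.U j →
      ∃ l m, s l i x * s m j x' ≠ s m i x * s l j x') ∧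
    (∀ x i l, f x ∈ V → x ∈ L.U i → s l i x ≠ 0 → ∀ h, X.Hol h x →
      ∃ (M : ℕ) (g : Fin M → Z.pt → ℂ) (G : Cm M × (J → ℂ) → ℂ),
        (∀ a, Z.Hol (g a) (f x)) ∧
        AnalyticAt ℂ G (fun a => g a (f x), fun m => s m i x / s l i x) ∧
        h =ᶠ[𝓝 x] fun y => G (fun a => g a (f y), fun m => s m i y / s l i y))) :
    RelAmple X Z f L := by
  intro z
  obtain ⟨V, k, J, hJ, s, hV, hz, hk, hs, hs0, hsep, himm⟩ := h z
  by_cases hJ' : Nonempty J
  swap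
  · have hno : ∀ x i, f x ∈ V → x ∈ L.U i → False := fun x i hx hi => by
      obtain ⟨l, -⟩ := hs0 x i hx hi
      exact hJ' ⟨l⟩
    exact ⟨V, k, 0, fun _ _ _ => 0, hV, hz, hk, fun l => ⟨fun i x _ _ => hol_const 0 x,
      fun i j x _ _ _ => (mul_zero _).symm⟩, fun x i hx hi => (hno x i hx hi).elim,
      fun x x' i j hx _ _ hi _ => (hno x i hx hi).elim, fun x i l hx hi => (hno x i hx hi).elim⟩
  obtain ⟨N, hN⟩ : ∃ N, Fintype.card J = N + 1 :=
    ⟨Fintype.card J - 1, by have := Fintype.card_pos (α := J); omega⟩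
  let e : Fin (N + 1) ≃ J := (finCongr hN.symm).trans (Fintype.equivFin J).symm
  refine ⟨V, k, N, fun l => s (e l), hV, hz, hk, fun l => hs _, ?_, ?_, ?_⟩
  · intro x i hx hi
    obtain ⟨l, hl⟩ := hs0 x i hx hi
    refine ⟨e.symm l, ?_⟩
    show s (e (e.symm l)) i x ≠ 0
    rwa [e.apply_symm_apply]
  · intro x x' i j hx hxx' hne hi hj
    obtain ⟨l, m, hlm⟩ := hsep x x' i j hx hxx' hne hi hj
    refine ⟨e.symm l, e.symm m, ?_⟩
    show s (e (e.symm l)) i x * s (e (e.symm m)) j x' ≠ s (e (e.symm m)) i x * s (e (e.symm l)) j x'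
    rwa [e.apply_symm_apply, e.apply_symm_apply]
  · intro x i l hx hi hl h hh
    obtain ⟨M, g, G, hg, hG, hhG⟩ := himm x i (e l) hx hi hl h hh
    -- reindexing
    let R : Cm (N + 1) →L[ℂ] (J → ℂ) := ContinuousLinearMap.pi fun j =>
      ContinuousLinearMap.proj (R := ℂ) (φ := fun _ : Fin (N + 1) => ℂ) (e.symm j)
    let Φ : Cm M × Cm (N + 1) →L[ℂ] Cm M × (J → ℂ) :=
      (ContinuousLinearMap.fst ℂ (Cm M) (Cm (N + 1))).prod
        (R.comp (ContinuousLinearMap.snd ℂ (Cm M) (Cm (N + 1))))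
    have hR : ∀ y, Φ (fun a => g a (f y), fun m => s (e m) i y / s (e l) i y) =
        (fun a => g a (f y), fun m => s m i y / s (e l) i y) := by
      intro y
      show ((fun a => g a (f y)), fun j => s (e (e.symm j)) i y / s (e l) i y) = _
      simp only [e.apply_symm_apply]
    refine ⟨M, g, fun p => G (Φ p), hg, ?_, ?_⟩
    · refine AnalyticAt.comp_of_eq (g := G) (f := Φ) ?_ (Φ.analyticAt _) (hR x)
      exact hG
    · filter_upwards [hhG] with y hy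
      rw [hy]
      show _ = G (Φ (fun a => g a (f y), fun m => s (e m) i y / s (e l) i y))
      rw [hR y]

/-- transition functions of combinations -/
theorem lin_g (hL : ∀ e, IsLBx X (L e)) {n m p : Fin K → ℤ} {w a b : ℕ}
    (h : ∀ e, (w : ℤ) * p e = a * n e + b * m e) {i j : ∀ e, (L e).ι} {x : X.pt}
    (hi : ∀ e, x ∈ (L e).U (i e)) (hj : ∀ e, x ∈ (L e).U (j e)) :
    (Bd.lin L p).g i j x ^ w = (Bd.lin L n).g i j x ^ a * (Bd.lin L m).g i j x ^ b := by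
  show (∏ e, (L e).g (i e) (j e) x ^ p e) ^ w = (∏ e, (L e).g (i e) (j e) x ^ n e) ^ a *
    (∏ e, (L e).g (i e) (j e) x ^ m e) ^ b
  rw [← Finset.prod_pow, ← Finset.prod_pow, ← Finset.prod_pow, ← Finset.prod_mul_distrib]
  refine Finset.prod_congr rfl fun e _ => ?_
  have h0 := (hL e).ne_zero _ _ x (hi e) (hj e)
  rw [← zpow_natCast, ← zpow_mul, ← zpow_natCast, ← zpow_mul, ← zpow_natCast, ← zpow_mul,
    ← zpow_add₀ h0]
  congr 1
  rw [mul_comm (p e), h e]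
  ring

theorem RelGen.zero : RelGen X Z f (Bd.lin L 0) := by
  intro z
  refine ⟨univ, 1, 1, fun _ _ _ => 1, isOpen_univ, mem_univ _, le_rfl,
    fun l => ⟨fun i x _ _ => hol_const 1 x, fun i j x _ _ _ => ?_⟩,
    fun _ _ _ _ => ⟨0, one_ne_zero⟩⟩
  show (1 : ℂ) = (∏ e, (L e).g (i e) (j e) x ^ (0 : Fin K → ℤ) e) ^ 1 * 1
  simp

theorem RelGen.add (hL : ∀ e, IsLBx X (L e)) {n m : Fin K → ℤ} (h : RelGen X Z f (Bd.lin L n))
    (h' : RelGen X Z f (Bd.lin L m)) (a b : ℕ) :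
    RelGen X Z f (Bd.lin L fun e => a * n e + b * m e) := by
  intro z
  obtain ⟨V, k, N, s, hV, hz, hk, hs, hs0⟩ := h z
  obtain ⟨V', k', N', t, hV', hz', hk', ht, ht0⟩ := h' z
  let e := finProdFinEquiv (m := N) (n := N')
  refine ⟨V ∩ V', k * k', N * N', fun l i x => s (e.symm l).1 i x ^ (k' * a) *
    t (e.symm l).2 i x ^ (k * b), hV.inter hV', ⟨hz, hz'⟩, Nat.mul_pos hk hk', fun l =>
    ⟨fun i x hx hi => ?_, fun i j x hx hi hj => ?_⟩, fun x i hx hi => ?_⟩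
  · exact hol_mul (hol_pow ((hs _).holo i x hx.1 hi) _) (hol_pow ((ht _).holo i x hx.2 hi) _)
  · have h1 : s (e.symm l).1 i x = (Bd.lin L n).g i j x ^ k * s (e.symm l).1 j x :=
      (hs (e.symm l).1).change i j x hx.1 hi hj
    have h2 : t (e.symm l).2 i x = (Bd.lin L m).g i j x ^ k' * t (e.symm l).2 j x :=
      (ht (e.symm l).2).change i j x hx.2 hi hj
    have h3 := lin_g hL (n := n) (m := m) (p := fun e => a * n e + b * m e) (w := 1) (a := a)
      (b := b) (fun e => by push_cast; ring) hi hj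
    rw [pow_one] at h3
    show s (e.symm l).1 i x ^ (k' * a) * t (e.symm l).2 i x ^ (k * b) =
      (Bd.lin L fun e => a * n e + b * m e).g i j x ^ (k * k') *
        (s (e.symm l).1 j x ^ (k' * a) * t (e.symm l).2 j x ^ (k * b))
    rw [h1, h2, h3, mul_pow, mul_pow, mul_pow, ← pow_mul, ← pow_mul, ← pow_mul, ← pow_mul,
      show k * (k' * a) = a * (k * k') by ring, show k' * (k * b) = b * (k * k') by ring]
    ring
  · obtain ⟨l, hl⟩ := hs0 x i hx.1 hi
    obtain ⟨l', hl'⟩ := ht0 x i hx.2 hi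
    refine ⟨e (l, l'), ?_⟩
    show s (e.symm (e (l, l'))).1 i x ^ (k' * a) * t (e.symm (e (l, l'))).2 i x ^ (k * b) ≠ 0
    rw [e.symm_apply_apply]
    exact mul_ne_zero (pow_ne_zero _ hl) (pow_ne_zero _ hl')

/-- Ample plus semiample is ample. -/
theorem relAmple_gen (hL : ∀ e, IsLBx X (L e)) {n m p : Fin K → ℤ} {w a b : ℕ} (hw : 1 ≤ w)
    (ha : 1 ≤ a) (h : ∀ e, (w : ℤ) * p e = a * n e + b * m e) (h1 : RelAmple X Z f (Bd.lin L n))
    (h2 : RelGen X Z f (Bd.lin L m)) : RelAmple X Z f (Bd.lin L p) := by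
  refine relAmple_of_fintype fun z => ?_
  obtain ⟨V, k, N, s, hV, hz, hk, hs, hs0, hsep, himm⟩ := h1 z
  obtain ⟨V', k', N', t, hV', hz', hk', ht, ht0⟩ := h2 z
  obtain ⟨d, hd⟩ : ∃ d, k' * a = d + 1 :=
    ⟨k' * a - 1, by have := Nat.mul_pos hk' ha; omega⟩
  refine ⟨V ∩ V', w * (k * k'), Fin (N + 1) × Fin (N + 1) × Fin N', inferInstance,
    fun l i x => s l.1 i x * s l.2.1 i x ^ d * t l.2.2 i x ^ (k * b), hV.inter hV', ⟨hz, hz'⟩,
    Nat.mul_pos hw (Nat.mul_pos hk hk'), fun l => ⟨fun i x hx hi => ?_,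
    fun i j x hx hi hj => ?_⟩, ?_, ?_, ?_⟩
  · exact hol_mul (hol_mul ((hs _).holo i x hx.1 hi) (hol_pow ((hs _).holo i x hx.1 hi) _))
      (hol_pow ((ht _).holo i x hx.2 hi) _)
  · have h1 : s l.1 i x = (Bd.lin L n).g i j x ^ k * s l.1 j x := (hs l.1).change i j x hx.1 hi hj
    have h1' : s l.2.1 i x = (Bd.lin L n).g i j x ^ k * s l.2.1 j x :=
      (hs l.2.1).change i j x hx.1 hi hj
    have h2 : t l.2.2 i x = (Bd.lin L m).g i j x ^ k' * t l.2.2 j x :=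
      (ht l.2.2).change i j x hx.2 hi hj
    have h3 := lin_g hL h hi hj
    show s l.1 i x * s l.2.1 i x ^ d * t l.2.2 i x ^ (k * b) =
      (Bd.lin L p).g i j x ^ (w * (k * k')) *
        (s l.1 j x * s l.2.1 j x ^ d * t l.2.2 j x ^ (k * b))
    have h4 : (Bd.lin L p).g i j x ^ (w * (k * k')) =
        (Bd.lin L n).g i j x ^ k * ((Bd.lin L n).g i j x ^ k) ^ d *
          ((Bd.lin L m).g i j x ^ k') ^ (k * b) := by
      rw [pow_mul, h3, mul_pow, ← pow_mul, ← pow_mul, ← pow_mul, ← pow_mul, ← pow_add,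
        show a * (k * k') = k + k * d by
          calc a * (k * k') = k * (k' * a) := by ring
            _ = k + k * d := by rw [hd]; ring,
        show k' * (k * b) = b * (k * k') by ring]
    rw [h1, h1', h2, h4, mul_pow, mul_pow]
    ring
  · intro x i hx hi
    obtain ⟨l, hl⟩ := hs0 x i hx.1 hi
    obtain ⟨q, hq⟩ := ht0 x i hx.2 hi
    exact ⟨(l, l, q), mul_ne_zero (mul_ne_zero hl (pow_ne_zero _ hl)) (pow_ne_zero _ hq)⟩
  · intro x x' i j hx hxx' hne hi hj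
    have hx' : f x' ∈ V ∩ V' := by rw [hxx']; exact hx
    obtain ⟨l, l', hll⟩ := hsep x x' i j hx.1 hxx' hne hi hj
    obtain ⟨l₀, hl₀⟩ := hs0 x i hx.1 hi
    obtain ⟨q₀, hq₀⟩ := ht0 x i hx.2 hi
    obtain ⟨l₁, hl₁⟩ := hs0 x' j hx'.1 hj
    obtain ⟨q₁, hq₁⟩ := ht0 x' j hx'.2 hj
    by_contra hcon
    push Not at hcon
    have e1 := hcon (l₀, l₀, q₀) (l₁, l₁, q₁)
    have e2 : s l₀ i x * s l₀ i x ^ d * t q₀ i x ^ (k * b) ≠ 0 :=
      mul_ne_zero (mul_ne_zero hl₀ (pow_ne_zero _ hl₀)) (pow_ne_zero _ hq₀)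
    have e3 : s l₁ j x' * s l₁ j x' ^ d * t q₁ j x' ^ (k * b) ≠ 0 :=
      mul_ne_zero (mul_ne_zero hl₁ (pow_ne_zero _ hl₁)) (pow_ne_zero _ hq₁)
    have e4 : s l₀ j x' * s l₀ j x' ^ d * t q₀ j x' ^ (k * b) ≠ 0 := by
      have := mul_ne_zero e2 e3
      rw [e1] at this
      exact right_ne_zero_of_mul this
    have e5 : s l₀ j x' ≠ 0 := left_ne_zero_of_mul (left_ne_zero_of_mul e4)
    have e6 : t q₀ j x' ^ (k * b) ≠ 0 := right_ne_zero_of_mul e4
    have e7 : ∀ l, s l i x * s l₀ j x' = s l₀ i x * s l j x' := by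
      intro l
      have e8 := hcon (l, l₀, q₀) (l₀, l₀, q₀)
      have e9 : s l₀ i x ^ d * t q₀ i x ^ (k * b) * (s l₀ j x' ^ d * t q₀ j x' ^ (k * b)) ≠ 0 :=
        mul_ne_zero (mul_ne_zero (pow_ne_zero _ hl₀) (pow_ne_zero _ hq₀))
          (mul_ne_zero (pow_ne_zero _ e5) e6)
      refine mul_right_cancel₀ e9 ?_
      calc _ = s l i x * s l₀ i x ^ d * t q₀ i x ^ (k * b) *
            (s l₀ j x' * s l₀ j x' ^ d * t q₀ j x' ^ (k * b)) := by ring
        _ = s l₀ i x * s l₀ i x ^ d * t q₀ i x ^ (k * b) *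
            (s l j x' * s l₀ j x' ^ d * t q₀ j x' ^ (k * b)) := e8
        _ = _ := by ring
    refine hll (mul_right_cancel₀ (mul_ne_zero hl₀ e5) ?_)
    calc s l i x * s l' j x' * (s l₀ i x * s l₀ j x') =
          (s l i x * s l₀ j x') * (s l₀ i x * s l' j x') := by ring
      _ = (s l₀ i x * s l j x') * (s l' i x * s l₀ j x') := by rw [e7 l, e7 l']
      _ = _ := by ring
  · intro x i l hx hi hl h hh
    obtain ⟨l₀, l₁, q⟩ := l
    have hl₀ : s l₀ i x ≠ 0 := left_ne_zero_of_mul (left_ne_zero_of_mul hl)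
    have hc : s l₁ i x ^ d * t q i x ^ (k * b) ≠ 0 :=
      mul_ne_zero (right_ne_zero_of_mul (left_ne_zero_of_mul hl)) (right_ne_zero_of_mul hl)
    obtain ⟨M, g, G, hg, hG, hhG⟩ := himm x i l₀ hx.1 hi hl₀ h hh
    have hcc : ContinuousAt (fun y => s l₁ i y ^ d * t q i y ^ (k * b)) x :=
      hol_continuousAt (hol_mul (hol_pow ((hs l₁).holo i x hx.1 hi) d)
        (hol_pow ((ht q).holo i x hx.2 hi) (k * b)))
    have hratio : ∀ y, s l₁ i y ^ d * t q i y ^ (k * b) ≠ 0 → ∀ l',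
        s l' i y * s l₁ i y ^ d * t q i y ^ (k * b) /
          (s l₀ i y * s l₁ i y ^ d * t q i y ^ (k * b)) = s l' i y / s l₀ i y := by
      intro y hy l'
      rw [mul_assoc, mul_assoc (s l₀ i y)]
      exact mul_div_mul_right _ _ hy
    -- forgetting coordinates
    let R : (Fin (N + 1) × Fin (N + 1) × Fin N' → ℂ) →L[ℂ] Cm (N + 1) :=
      ContinuousLinearMap.pi fun l' => ContinuousLinearMap.proj (R := ℂ)
        (φ := fun _ : Fin (N + 1) × Fin (N + 1) × Fin N' => ℂ) (l', l₁, q)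
    let Φ : Cm M × (Fin (N + 1) × Fin (N + 1) × Fin N' → ℂ) →L[ℂ] Cm M × Cm (N + 1) :=
      (ContinuousLinearMap.fst ℂ (Cm M) (Fin (N + 1) × Fin (N + 1) × Fin N' → ℂ)).prod
        (R.comp (ContinuousLinearMap.snd ℂ (Cm M) (Fin (N + 1) × Fin (N + 1) × Fin N' → ℂ)))
    have hR : ∀ y, s l₁ i y ^ d * t q i y ^ (k * b) ≠ 0 → Φ (fun a => g a (f y),
        fun m' : Fin (N + 1) × Fin (N + 1) × Fin N' =>
          s m'.1 i y * s m'.2.1 i y ^ d * t m'.2.2 i y ^ (k * b) /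
            (s l₀ i y * s l₁ i y ^ d * t q i y ^ (k * b))) =
        (fun a => g a (f y), fun m' => s m' i y / s l₀ i y) := by
      intro y hy
      show ((fun a => g a (f y)), fun l' => s l' i y * s l₁ i y ^ d * t q i y ^ (k * b) /
          (s l₀ i y * s l₁ i y ^ d * t q i y ^ (k * b))) = _
      simp only [hratio y hy]
    refine ⟨M, g, fun p => G (Φ p), hg, ?_, ?_⟩
    · refine AnalyticAt.comp_of_eq (g := G) (f := Φ) ?_ (Φ.analyticAt _) (hR x hc)
      exact hG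
    · filter_upwards [hhG, hcc.eventually_ne hc] with y hy hy'
      rw [hy]
      exact congrArg G (hR y hy').symm

end Vale.Agent.P277.H29.CY
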