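import Vale.Agent.P277.H29.CY.Fin3
import Vale.Agent.P277.H884.T4

/-!
# P277, Theorem T5
-/

noncomputable section

namespace Vale.Agent.P277.H29.CY

/-- **Theorem T5** -/
theorem stT5C : T3.StT5C := stT5C_of H884.N.stT4F

end Vale.Agent.P277.H29.CY
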