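import Vale.Agent.P277.H29.CY.FinG
import Vale.Agent.P277.H371.G.FinG
import Vale.Agent.P277.H335.K.RegK
import Vale.Agent.P277.H884.G.P7G
import Vale.Agent.P277.H619.T3.Fin6

/-!
# P277, (K): the theorems T4 and T5
-/

noncomputable section

namespace Vale.Agent.P277.H29.CY

open Vale.Agent.P277

/-- **Theorem (T4KF)** -/
theorem stT4KF : T3.StT4KF :=
  H371.G.stT4KF_of H335.KK.stRegK (H371.G.stT4G_of T3.stContr H884.G.stP7G)

/-- **Theorem (T5K)** -/
theorem stT5K : T3.StT5K := stT5K_of stT4KF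

end Vale.Agent.P277.H29.CY
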