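import Vale.Agent.P277.H29.CY.Twist
import Vale.Agent.P277.H371.C.Wrap

/-!
# P277, T5: trivial line bundles are transported through flips
-/

set_option linter.unusedSectionVars false

open scoped Manifold ContDiff Topology
open Vale.Agent.P272.K Vale.Agent.P285.H281.FD Vale.Agent.P267.H175 Set Filter Metric

noncomputable section

namespace Vale.Agent.P277.H29.CY

open Vale.Agent.P277 Vale.Agent.P277.T2 Vale.Agent.P277.T3 Vale.Agent.P277.H615
open Vale.Agent.P277.H371.C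

variable {X Z X' : CSp} {f : X.pt → Z.pt} {f' : X'.pt → Z.pt} {A : Set Z.pt} {K : ℕ}
  {L : Fin K → Bd X.pt} {L' : Fin K → Bd X'.pt}

theorem isIso_one {L : Bd X.pt} {L' : Bd X'.pt} {t : L.ι → L'.ι → Z.pt → ℂ}
    (ht : IsIso f f' A L L' t) : IsIso f f' A (L.pow 1) (L'.pow 1) t where
  holo x x' a b hx hxx' ha hb := ht.holo x x' a b hx hxx' ha hb
  change x x' a a₁ b b₁ hx hxx' ha ha₁ hb hb₁ := by
    have h1 := ht.change x x' a a₁ b b₁ hx hxx' ha ha₁ hb hb₁
    show t a₁ b₁ (f x) = L.g a a₁ x ^ 1 * t a b (f x) * L'.g b₁ b x' ^ 1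
    rw [pow_one, pow_one]
    exact h1

theorem isSecx_one {L : Bd X.pt} {V : Set X.pt} {s : L.ι → X.pt → ℂ} :
    IsSecx X V (L.pow 1) s ↔ IsSecx X V L s := by
  constructor
  · intro h
    refine ⟨h.holo, fun i j x hx hi hj => ?_⟩
    have h1 : s i x = L.g i j x ^ 1 * s j x := h.change i j x hx hi hj
    rwa [pow_one] at h1
  · intro h
    refine ⟨h.holo, fun i j x hx hi hj => ?_⟩
    show s i x = L.g i j x ^ 1 * s j x
    rw [pow_one]
    exact h.change i j x hx hi hj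

/-- a trivial integral combination on `X` gives one on `X'` -/
theorem triv_trans {c c' : Fin K → ℕ} {ρ : Fin K → ℝ} (h : IsFlipR X Z X' f f' A L L' c c' ρ)
    {n : Fin K → ℤ} (hn : IsTriv X (Bd.lin L n)) :
    ∃ (N : ℕ) (n' : Fin K → ℤ), 1 ≤ N ∧ (∀ e, n' e * c' e = N * (n e * c e)) ∧
      IsTriv X' (Bd.lin L' n') := by
  choose p q hp hq hpq t ht using h.iso
  obtain ⟨s, hs, hs0⟩ := hn
  set PP : ℕ := ∏ e, p e with hPP
  set r : Fin K → ℕ := fun e => ∏ e' ∈ Finset.univ.erase e, p e' with hr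
  have hrp : ∀ e, r e * p e = PP := fun e => by
    rw [mul_comm]
    exact Finset.mul_prod_erase _ _ (Finset.mem_univ e)
  have hPP1 : 1 ≤ PP := Finset.one_le_prod' fun e _ => hp e
  set m : Fin K → ℤ := fun e => n e * r e with hm
  have hlbp : ∀ e, IsLBx X ((L e).pow (p e)) := fun e => IsLBx.pow (h.lb e) _
  have hlbq : ∀ e, IsLBx X' ((L' e).pow (q e)) := fun e => IsLBx.pow (h.lb' e) _
  -- the sections for both signs
  have key : ∀ u : ℤ, ∃ σ' : (Bd.lin (fun e => (L' e).pow (q e)) (u • m)).ι → X'.pt → ℂ,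
      IsSecx X' univ (Bd.lin (fun e => (L' e).pow (q e)) (u • m)) σ' ∧
      ∀ x x' a b, f x ∉ A → f' x' = f x → (∀ e, x ∈ (L e).U (a e)) → (∀ e, x' ∈ (L' e).U (b e)) →
        s a x ^ (u * PP) * ∏ e, t e (a e) (b e) (f x) ^ (u • m) e = σ' b x' := by
    intro u
    have hσ : IsSecx X univ (Bd.lin (fun e => (L e).pow (p e)) (u • m))
        (fun a x => s a x ^ (u * PP)) := by
      refine ⟨fun a x _ ha => hol_zpow (hs.holo a x (mem_univ _) ha) (hs0 a x ha) _,
        fun a b x _ ha hb => ?_⟩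
      have h1 := hs.change a b x (mem_univ _) ha hb
      show s a x ^ (u * (PP : ℤ)) = (∏ e, ((L e).g (a e) (b e) x ^ p e) ^ (u • m) e) *
        s b x ^ (u * (PP : ℤ))
      rw [h1]
      show ((∏ e, (L e).g (a e) (b e) x ^ n e) * s b x) ^ (u * (PP : ℤ)) = _
      rw [mul_zpow, ← Finset.prod_zpow]
      congr 1
      refine Finset.prod_congr rfl fun e _ => ?_
      rw [← zpow_mul, ← zpow_natCast, ← zpow_mul]
      congr 1
      show n e * (u * (PP : ℤ)) = (p e : ℤ) * (u * (n e * (r e : ℤ)))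
      rw [← hrp e]
      push_cast
      ring
    have hiso := IsIso.lin ht (u • m)
    have h1 := exists_sec_flip (p := 1) (q := 1) (P := 1) h.normal' h.small h.small'
      (IsLBx.lin hlbp (u • m)) (IsLBx.lin hlbq (u • m)) (t := fun i j z =>
        ∏ e, t e (i e) (j e) z ^ (u • m) e) (isIso_one hiso)
      (σ := fun a x => s a x ^ (u * (PP : ℤ))) (isSecx_one.2 hσ)
    obtain ⟨σ', h2, h3⟩ := h1
    refine ⟨σ', isSecx_one.1 h2, fun x x' a b hx hxx' ha hb => ?_⟩
    have h4 := h3 x x' a b hx hxx' ha hb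
    rw [pow_one, pow_one] at h4
    exact h4
  obtain ⟨σ₁, h1, h1'⟩ := key 1
  obtain ⟨σ₂, h2, h2'⟩ := key (-1)
  have hdA : Dense (f' ⁻¹' A)ᶜ := dense_compl_of_dimLe (n := 4) (by norm_num) h.normal'.dense
    h.small'.dim
  choose al hal using fun e => (h.lb e).cover
  have hmul : ∀ b : ∀ e, (L' e).ι, ∀ x' ∈ (Bd.lin L' m).U b, σ₁ b x' * σ₂ b x' = 1 := by
    intro b
    refine eqOn_of_dense ((IsLBx.lin h.lb' m).isOpen b) hdA
      (hol_continuousOn fun x' hx' => hol_mul (h1.holo b x' (mem_univ _) hx')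
        (h2.holo b x' (mem_univ _) hx')) continuousOn_const fun x' hx' hx'A => ?_
    obtain ⟨x, hx⟩ := h.small.surj (f' x')
    have hxA : f x ∉ A := by rw [hx]; exact hx'A
    have e1 := h1' x x' (fun e => al e x) b hxA hx.symm (fun e => hal e x) hx'
    have e2 := h2' x x' (fun e => al e x) b hxA hx.symm (fun e => hal e x) hx'
    have e3 : s (fun e => al e x) x ≠ 0 := hs0 _ x fun e => hal e x
    have e4 : ∀ e, t e (al e x) (b e) (f x) ≠ 0 := fun e =>
      ((ht e).holo x x' (al e x) (b e) hxA hx.symm (hal e x) (hx' e)).2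
    rw [← e1, ← e2]
    have e5 : (∏ e, t e (al e x) (b e) (f x) ^ ((1 : ℤ) • m) e) *
        ∏ e, t e (al e x) (b e) (f x) ^ ((-1 : ℤ) • m) e = 1 := by
      rw [← Finset.prod_mul_distrib]
      refine Finset.prod_eq_one fun e _ => ?_
      rw [← zpow_add₀ (e4 e)]
      simp
    have e6 : s (fun e => al e x) x ^ (1 * (PP : ℤ)) * s (fun e => al e x) x ^ (-1 * (PP : ℤ)) = 1 := by
      rw [← zpow_add₀ e3]
      simp
    calc _ = (s (fun e => al e x) x ^ (1 * (PP : ℤ)) * s (fun e => al e x) x ^ (-1 * (PP : ℤ))) *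
          ((∏ e, t e (al e x) (b e) (f x) ^ ((1 : ℤ) • m) e) *
            ∏ e, t e (al e x) (b e) (f x) ^ ((-1 : ℤ) • m) e) := by ring
      _ = 1 := by rw [e5, e6, one_mul]
  refine ⟨PP, fun e => m e * q e, hPP1, fun e => ?_, ?_⟩
  · have h3 := hpq e
    have h4 : (c e : ℤ) * p e = c' e * q e := by exact_mod_cast h3
    show n e * (r e : ℤ) * (q e : ℤ) * (c' e : ℤ) = (PP : ℤ) * (n e * (c e : ℤ))
    rw [← hrp e]
    push_cast
    linear_combination (-(n e * (r e : ℤ))) * h4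
  · have h5 : Bd.lin (fun e => (L' e).pow (q e)) ((1 : ℤ) • m) =
        Bd.lin L' (fun e => m e * q e) := by
      rw [one_smul, lin_pow]
    rw [← h5]
    exact ⟨σ₁, h1, fun b x' hx' => left_ne_zero_of_mul (by rw [hmul b x' hx']; exact one_ne_zero)⟩

/-- the real combinations of trivial integral combinations -/
def RTg (X : CSp) (L : Fin K → Bd X.pt) (c : Fin K → ℕ) : Submodule ℝ (Fin K → ℝ) :=
  Submodule.span ℝ {x | ∃ n : Fin K → ℤ, IsTriv X (Bd.lin L n) ∧ ∀ e, x e = n e * c e}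

theorem RTg_le {c : Fin K → ℕ} : RTg X L c ≤ RT X Z f L c :=
  Submodule.span_mono fun _ ⟨n, hn, hx⟩ => ⟨n, IsTriv.trivZ hn, hx⟩

theorem RTg_trans {c c' : Fin K → ℕ} {ρ : Fin K → ℝ} (h : IsFlipR X Z X' f f' A L L' c c' ρ) :
    RTg X L c ≤ RTg X' L' c' := by
  refine Submodule.span_le.2 ?_
  rintro x ⟨n, hn, hx⟩
  obtain ⟨N, n', hN, hn', ht⟩ := triv_trans h hn
  have hN0 : (N : ℝ) ≠ 0 := by exact_mod_cast (Nat.one_le_iff_ne_zero.1 hN)
  have e1 : x = (N : ℝ)⁻¹ • fun e => (n' e * c' e : ℝ) := by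
    funext e
    have h1 : (n' e * c' e : ℝ) = N * (n e * c e) := by exact_mod_cast hn' e
    rw [Pi.smul_apply, smul_eq_mul, h1, hx e]
    field_simp
  rw [e1]
  exact Submodule.smul_mem _ _ (Submodule.subset_span ⟨n', ht, fun e => rfl⟩)

theorem IsRTriv.mem {c : Fin K → ℕ} {σ : Fin K → ℝ} (h : IsRTriv X L c σ) : σ ∈ RTg X L c := by
  obtain ⟨b, n, x, hn, hσ⟩ := h
  have e1 : σ = ∑ a, x a • fun e => (n a e * c e : ℝ) := by
    funext e
    rw [hσ e, Finset.sum_apply]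
    rfl
  rw [e1]
  exact Submodule.sum_mem _ fun a _ => Submodule.smul_mem _ _
    (Submodule.subset_span ⟨n a, hn a, fun e => rfl⟩)

end Vale.Agent.P277.H29.CY
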