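import Vale.Agent.P277.Stmts17
import Vale.Agent.P277.H615.R.FlipD

/-!
# P277, T5: relative ampleness and trivial line bundles
-/

set_option linter.unusedSectionVars false

open scoped Manifold ContDiff Topology
open Vale.Agent.P272.K Vale.Agent.P285.H281.FD Vale.Agent.P267.H175 Set Filter Metric

noncomputable section

namespace Vale.Agent.P277.H29.CY

open Vale.Agent.P277 Vale.Agent.P277.T2 Vale.Agent.P277.T3 Vale.Agent.P277.H615

variable {X Z X' : CSp} {f : X.pt → Z.pt} {f' : X'.pt → Z.pt} {A : Set Z.pt} {K : ℕ}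
  {L : Fin K → Bd X.pt} {L' : Fin K → Bd X'.pt}

/-- the line bundle `L` is trivial locally over `Z` -/
def TrivZ (X Z : CSp) (f : X.pt → Z.pt) (L : Bd X.pt) : Prop :=
  ∀ z, ∃ (V : Set Z.pt) (s : L.ι → X.pt → ℂ), IsOpen V ∧ z ∈ V ∧ IsSecx X (f ⁻¹' V) L s ∧
    ∀ i x, f x ∈ V → x ∈ L.U i → s i x ≠ 0

theorem IsTriv.trivZ {L : Bd X.pt} (h : IsTriv X L) : TrivZ X Z f L := by
  obtain ⟨s, hs, hs0⟩ := h
  exact fun z => ⟨univ, s, isOpen_univ, mem_univ _, ⟨fun i x _ hi => hs.holo i x (mem_univ _) hi,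
    fun i j x _ hi hj => hs.change i j x (mem_univ _) hi hj⟩, fun i x _ hi => hs0 i x hi⟩

theorem inv_lin (n : Fin K → ℤ) : Bd.inv (Bd.lin L n) = Bd.lin L (-n) := by
  show Bd.mk _ _ _ = Bd.mk _ _ _
  congr 1
  funext i j x
  show (∏ e, (L e).g (i e) (j e) x ^ n e)⁻¹ = ∏ e, (L e).g (i e) (j e) x ^ (-n) e
  rw [← Finset.prod_inv_distrib]
  exact Finset.prod_congr rfl fun e _ => (zpow_neg _ _).symm

/-- integral combinations of trivial bundles -/
theorem TrivZ.add (hL : ∀ e, IsLBx X (L e)) {n n' : Fin K → ℤ} (h : TrivZ X Z f (Bd.lin L n))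
    (h' : TrivZ X Z f (Bd.lin L n')) : TrivZ X Z f (Bd.lin L (n + n')) := by
  intro z
  obtain ⟨V, s, hV, hz, hs, hs0⟩ := h z
  obtain ⟨V', s', hV', hz', hs', hs0'⟩ := h' z
  refine ⟨V ∩ V', fun i x => s i x * s' i x, hV.inter hV', ⟨hz, hz'⟩, ⟨fun i x hx hi => ?_,
    fun i j x hx hi hj => ?_⟩, fun i x hx hi => mul_ne_zero (hs0 i x hx.1 hi) (hs0' i x hx.2 hi)⟩
  · exact hol_mul (hs.holo i x hx.1 hi) (hs'.holo i x hx.2 hi)
  · have h1 := hs.change i j x hx.1 hi hj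
    have h2 := hs'.change i j x hx.2 hi hj
    show s i x * s' i x = (∏ e, (L e).g (i e) (j e) x ^ (n + n') e) * (s j x * s' j x)
    rw [h1, h2]
    show (∏ e, (L e).g (i e) (j e) x ^ n e) * s j x *
      ((∏ e, (L e).g (i e) (j e) x ^ n' e) * s' j x) = _
    have h3 : ∀ e, (L e).g (i e) (j e) x ^ (n + n') e =
        (L e).g (i e) (j e) x ^ n e * (L e).g (i e) (j e) x ^ n' e := fun e =>
      zpow_add₀ ((hL e).ne_zero _ _ x (hi e) (hj e)) _ _
    simp only [h3, Finset.prod_mul_distrib]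
    ring

theorem TrivZ.smul {n : Fin K → ℤ} (h : TrivZ X Z f (Bd.lin L n))
    (a : ℤ) : TrivZ X Z f (Bd.lin L (a • n)) := by
  intro z
  obtain ⟨V, s, hV, hz, hs, hs0⟩ := h z
  refine ⟨V, fun i x => s i x ^ a, hV, hz, ⟨fun i x hx hi => ?_, fun i j x hx hi hj => ?_⟩,
    fun i x hx hi => zpow_ne_zero _ (hs0 i x hx hi)⟩
  · exact hol_zpow (hs.holo i x hx hi) (hs0 i x hx hi) a
  · have h1 := hs.change i j x hx hi hj
    show s i x ^ a = (∏ e, (L e).g (i e) (j e) x ^ (a • n) e) * s j x ^ a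
    rw [h1]
    show ((∏ e, (L e).g (i e) (j e) x ^ n e) * s j x) ^ a = _
    rw [mul_zpow, ← Finset.prod_zpow]
    congr 1
    refine Finset.prod_congr rfl fun e _ => ?_
    rw [← zpow_mul]
    congr 1
    show n e * a = a * n e
    ring

theorem TrivZ.zero : TrivZ X Z f (Bd.lin L 0) := by
  intro z
  refine ⟨univ, fun _ _ => 1, isOpen_univ, mem_univ _, ⟨fun i x _ _ => hol_const 1 x,
    fun i j x _ _ _ => ?_⟩, fun _ _ _ _ => one_ne_zero⟩
  show (1 : ℂ) = (∏ e, (L e).g (i e) (j e) x ^ (0 : Fin K → ℤ) e) * 1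
  simp

/-- Roots of relatively ample bundles, up to locally trivial bundles, are relatively ample. -/
theorem relAmple_twist (hf : Continuous f) (hL : ∀ e, IsLBx X (L e)) {n n' n₀ : Fin K → ℤ} {a : ℕ}
    (ha : 1 ≤ a) (hn : ∀ e, n e = a * n' e + n₀ e) (h₀ : TrivZ X Z f (Bd.lin L n₀))
    (h : RelAmple X Z f (Bd.lin L n)) : RelAmple X Z f (Bd.lin L n') := by
  intro z
  obtain ⟨V, k, N, s, hV, hz, hk, hs, hs0, hsep, himm⟩ := h z
  obtain ⟨V₀, τ, hV₀, hz₀, hτ, hτ0⟩ := h₀ z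
  have hgn : ∀ i j x, x ∈ (Bd.lin L n).U i → x ∈ (Bd.lin L n).U j →
      (Bd.lin L n).g i j x = (Bd.lin L n').g i j x ^ a * (Bd.lin L n₀).g i j x := by
    intro i j x hi hj
    show (∏ e, (L e).g (i e) (j e) x ^ n e) = (∏ e, (L e).g (i e) (j e) x ^ n' e) ^ a *
      ∏ e, (L e).g (i e) (j e) x ^ n₀ e
    rw [← Finset.prod_pow, ← Finset.prod_mul_distrib]
    refine Finset.prod_congr rfl fun e _ => ?_
    rw [hn, zpow_add₀ ((hL e).ne_zero _ _ x (hi e) (hj e)), mul_comm (a : ℤ), zpow_mul,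
      zpow_natCast]
  refine ⟨V ∩ V₀, a * k, N, fun l i x => s l i x * ((τ i x)⁻¹) ^ k, hV.inter hV₀, ⟨hz, hz₀⟩,
    Nat.mul_pos ha hk, fun l => ⟨fun i x hx hi => ?_, fun i j x hx hi hj => ?_⟩, ?_, ?_, ?_⟩
  · exact hol_mul ((hs l).holo i x hx.1 hi) (hol_pow (hol_inv (hτ.holo i x hx.2 hi)
      (hτ0 i x hx.2 hi)) k)
  · have h1 := (hs l).change i j x hx.1 hi hj
    have h2 := hτ.change i j x hx.2 hi hj
    have h3 : s l i x = (Bd.lin L n).g i j x ^ k * s l j x := h1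
    have h4 : (Bd.lin L n₀).g i j x ≠ 0 := by
      show (∏ e, (L e).g (i e) (j e) x ^ n₀ e) ≠ 0
      exact Finset.prod_ne_zero_iff.2 fun e _ =>
        zpow_ne_zero _ ((hL e).ne_zero _ _ x (hi e) (hj e))
    show s l i x * ((τ i x)⁻¹) ^ k = (Bd.lin L n').g i j x ^ (a * k) * (s l j x * ((τ j x)⁻¹) ^ k)
    rw [h3, h2, hgn i j x hi hj, mul_inv, mul_pow, mul_pow, inv_pow ((Bd.lin L n₀).g i j x),
      ← pow_mul]
    have h5 : (Bd.lin L n₀).g i j x ^ k ≠ 0 := pow_ne_zero _ h4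
    field_simp
  · intro x i hx hi
    obtain ⟨l, hl⟩ := hs0 x i hx.1 hi
    exact ⟨l, mul_ne_zero hl (pow_ne_zero _ (inv_ne_zero (hτ0 i x hx.2 hi)))⟩
  · intro x x' i j hx hxx' hne hi hj
    obtain ⟨l, m, hlm⟩ := hsep x x' i j hx.1 hxx' hne hi hj
    refine ⟨l, m, fun hcon => hlm ?_⟩
    have h1 : ((τ i x)⁻¹) ^ k ≠ 0 := pow_ne_zero _ (inv_ne_zero (hτ0 i x hx.2 hi))
    have h2 : ((τ j x')⁻¹) ^ k ≠ 0 :=
      pow_ne_zero _ (inv_ne_zero (hτ0 j x' (by rw [hxx']; exact hx.2) hj))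
    have h3 : s l i x * s m j x' * (((τ i x)⁻¹) ^ k * ((τ j x')⁻¹) ^ k) =
        s m i x * s l j x' * (((τ i x)⁻¹) ^ k * ((τ j x')⁻¹) ^ k) := by
      calc _ = s l i x * ((τ i x)⁻¹) ^ k * (s m j x' * ((τ j x')⁻¹) ^ k) := by ring
        _ = s m i x * ((τ i x)⁻¹) ^ k * (s l j x' * ((τ j x')⁻¹) ^ k) := hcon
        _ = _ := by ring
    exact mul_right_cancel₀ (mul_ne_zero h1 h2) h3
  · intro x i l hx hi hl h hh
    have hl' : s l i x ≠ 0 := left_ne_zero_of_mul hl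
    obtain ⟨m, g, G, hg, hG, hhG⟩ := himm x i l hx.1 hi hl' h hh
    have hq : ∀ y, f y ∈ V₀ → y ∈ (Bd.lin L n').U i → ∀ m', s m' i y * ((τ i y)⁻¹) ^ k /
        (s l i y * ((τ i y)⁻¹) ^ k) = s m' i y / s l i y := fun y hy hyi m' =>
      mul_div_mul_right _ _ (pow_ne_zero _ (inv_ne_zero (hτ0 i y hy hyi)))
    refine ⟨m, g, G, hg, ?_, ?_⟩
    · have h1 : (fun m' => s m' i x * ((τ i x)⁻¹) ^ k / (s l i x * ((τ i x)⁻¹) ^ k)) =
          fun m' => s m' i x / s l i x := funext fun m' => hq x hx.2 hi m'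
      show AnalyticAt ℂ G (fun a => g a (f x), fun m' => s m' i x * ((τ i x)⁻¹) ^ k /
        (s l i x * ((τ i x)⁻¹) ^ k))
      rw [h1]
      exact hG
    · have e1 : ∀ᶠ y in 𝓝 x, f y ∈ V₀ := hf.continuousAt.eventually_mem (hV₀.mem_nhds hx.2)
      have e2 : ∀ᶠ y in 𝓝 x, y ∈ (Bd.lin L n').U i :=
        ((IsLBx.lin hL n').isOpen i).mem_nhds hi
      filter_upwards [hhG, e1, e2] with y y1 y2 y3
      rw [y1]
      show G (fun a => g a (f y), fun m' => s m' i y / s l i y) =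
        G (fun a => g a (f y), fun m' => s m' i y * ((τ i y)⁻¹) ^ k /
          (s l i y * ((τ i y)⁻¹) ^ k))
      rw [show (fun m' => s m' i y * ((τ i y)⁻¹) ^ k / (s l i y * ((τ i y)⁻¹) ^ k)) =
          fun m' => s m' i y / s l i y from funext fun m' => hq y y2 y3 m']

/-- the real combinations of the integral combinations which are trivial locally over `Z` -/
def RT (X Z : CSp) (f : X.pt → Z.pt) (L : Fin K → Bd X.pt) (c : Fin K → ℕ) :
    Submodule ℝ (Fin K → ℝ) :=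
  Submodule.span ℝ {x | ∃ n : Fin K → ℤ, TrivZ X Z f (Bd.lin L n) ∧ ∀ e, x e = n e * c e}

theorem approx (hL : ∀ e, IsLBx X (L e)) {c : Fin K → ℕ} {θ : Fin K → ℝ}
    (h : θ ∈ RT X Z f L c) : ∀ δ : ℝ, 0 < δ → ∃ (n : Fin K → ℤ) (w : ℕ), 1 ≤ w ∧
      TrivZ X Z f (Bd.lin L n) ∧ ∀ e, |(n e * c e : ℝ) / w - θ e| < δ := by
  induction h using Submodule.span_induction with
  | mem x hx =>
    intro δ hδ
    obtain ⟨n, hn, hx⟩ := hx
    refine ⟨n, 1, le_rfl, hn, fun e => ?_⟩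
    rw [hx e]
    simpa using hδ
  | zero =>
    intro δ hδ
    refine ⟨0, 1, le_rfl, TrivZ.zero, fun e => ?_⟩
    simpa using hδ
  | add x y _ _ hx hy =>
    intro δ hδ
    obtain ⟨n, w, hw, hn, hx⟩ := hx (δ / 2) (by positivity)
    obtain ⟨n', w', hw', hn', hy⟩ := hy (δ / 2) (by positivity)
    refine ⟨(w' : ℤ) • n + (w : ℤ) • n', w * w', Nat.mul_pos hw hw', (hn.smul _).add hL (hn'.smul _),
      fun e => ?_⟩
    have hw0 : (w : ℝ) ≠ 0 := by exact_mod_cast (Nat.one_le_iff_ne_zero.1 hw)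
    have hw0' : (w' : ℝ) ≠ 0 := by exact_mod_cast (Nat.one_le_iff_ne_zero.1 hw')
    have e1 : ((((w' : ℤ) • n + (w : ℤ) • n') e * c e : ℝ)) / ((w * w' : ℕ) : ℝ) - (x + y) e =
        ((n e * c e : ℝ) / w - x e) + ((n' e * c e : ℝ) / w' - y e) := by
      simp only [Pi.add_apply, Pi.smul_apply, smul_eq_mul]
      push_cast
      field_simp
      ring
    rw [e1]
    calc _ ≤ |(n e * c e : ℝ) / w - x e| + |(n' e * c e : ℝ) / w' - y e| := abs_add_le _ _
      _ < δ / 2 + δ / 2 := add_lt_add (hx e) (hy e)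
      _ = δ := by ring
  | smul a x _ hx =>
    intro δ hδ
    obtain ⟨n, w, hw, hn, hx⟩ := hx (δ / (2 * (|a| + 1))) (by positivity)
    obtain ⟨C, hC, hC'⟩ : ∃ C : ℝ, 0 < C ∧ ∀ e, |(n e * c e : ℝ) / w| ≤ C := by
      refine ⟨∑ e, |(n e * c e : ℝ) / w| + 1, by positivity, fun e => ?_⟩
      have := Finset.single_le_sum (f := fun e => |(n e * c e : ℝ) / w|) (fun e _ => abs_nonneg _)
        (Finset.mem_univ e)
      linarith
    obtain ⟨q, hq1, hq2⟩ := exists_rat_btwn (show a - δ / (2 * C) < a + δ / (2 * C) by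
      have : 0 < δ / (2 * C) := by positivity
      linarith)
    have hq : |(q : ℝ) - a| < δ / (2 * C) := by
      rw [abs_lt]; constructor <;> linarith
    refine ⟨q.num • n, q.den * w, Nat.mul_pos q.pos hw, hn.smul _, fun e => ?_⟩
    have hw0 : (w : ℝ) ≠ 0 := by exact_mod_cast (Nat.one_le_iff_ne_zero.1 hw)
    have hd0 : (q.den : ℝ) ≠ 0 := by exact_mod_cast q.den_ne_zero
    have hqe : (q : ℝ) = q.num / q.den := by exact_mod_cast (Rat.num_div_den q).symm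
    have e1 : (((q.num • n) e * c e : ℝ)) / ((q.den * w : ℕ) : ℝ) - (a • x) e =
        ((q : ℝ) - a) * ((n e * c e : ℝ) / w) + a * ((n e * c e : ℝ) / w - x e) := by
      simp only [Pi.smul_apply, smul_eq_mul]
      rw [hqe]
      push_cast
      field_simp
      ring
    rw [e1]
    have h1 : |((q : ℝ) - a) * ((n e * c e : ℝ) / w)| ≤ |(q : ℝ) - a| * C := by
      rw [abs_mul]
      exact mul_le_mul_of_nonneg_left (hC' e) (abs_nonneg _)
    have h2 : |(q : ℝ) - a| * C < δ / 2 := by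
      have := mul_lt_mul_of_pos_right hq hC
      have e2 : δ / (2 * C) * C = δ / 2 := by field_simp
      rwa [e2] at this
    have h3 : |a * ((n e * c e : ℝ) / w - x e)| ≤ (|a| + 1) * (δ / (2 * (|a| + 1))) := by
      rw [abs_mul]
      exact mul_le_mul (by linarith [abs_nonneg a]) (hx e).le (abs_nonneg _) (by positivity)
    have h4 : (|a| + 1) * (δ / (2 * (|a| + 1))) = δ / 2 := by
      have : |a| + 1 ≠ 0 := by positivity
      field_simp
    calc _ ≤ |((q : ℝ) - a) * ((n e * c e : ℝ) / w)| + |a * ((n e * c e : ℝ) / w - x e)| :=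
          abs_add_le _ _
      _ < δ / 2 + δ / 2 := by linarith
      _ = δ := by ring

/-- the ampleness condition of `IsFlipR`, for a sign `ε` -/
theorem ample_twist (hf : Continuous f) (hL : ∀ e, IsLBx X (L e)) {c : Fin K → ℕ} {ρ θ : Fin K → ℝ}
    (hθ : θ ∈ RT X Z f L c) {lam : ℝ} (hlam : 0 < lam) {u : ℤ}
    (h : ∃ ε > 0, ∀ (n : Fin K → ℤ) (d : ℕ), 1 ≤ d → (∀ e, |(n e * c e : ℝ) / d - ρ e| < ε) →
      RelAmple X Z f (Bd.lin L (u • n))) :
    ∃ ε > 0, ∀ (n : Fin K → ℤ) (d : ℕ), 1 ≤ d →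
      (∀ e, |(n e * c e : ℝ) / d - (lam * ρ e + θ e)| < ε) →
      RelAmple X Z f (Bd.lin L (u • n)) := by
  obtain ⟨ε, hε, h⟩ := h
  -- a bound for `ρ`
  obtain ⟨C, hC, hC'⟩ : ∃ C : ℝ, 0 < C ∧ ∀ e, |ρ e| ≤ C := by
    refine ⟨∑ e, |ρ e| + 1, by positivity, fun e => ?_⟩
    have := Finset.single_le_sum (f := fun e => |ρ e|) (fun e _ => abs_nonneg _)
      (Finset.mem_univ e)
    linarith
  set η : ℝ := lam * ε / 16 with hη
  have hη0 : 0 < η := by positivity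
  -- a rational approximation of `lam`
  obtain ⟨q, hq1, hq2⟩ := exists_rat_btwn (show lam < lam + min (η / C) lam by
    have : 0 < min (η / C) lam := lt_min (by positivity) hlam
    linarith)
  have hq0 : (0 : ℝ) < q := hlam.trans hq1
  have hqa : |(q : ℝ) - lam| ≤ η / C := by
    rw [abs_of_pos (by linarith)]
    have := min_le_left (η / C) lam
    linarith
  obtain ⟨n₀, w, hw, hn₀, hθ'⟩ := approx hL hθ η hη0
  refine ⟨η, hη0, fun n d hd hn => ?_⟩
  -- the numerator and the denominator of `q`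
  have hnum : 0 < q.num := by
    have : (0 : ℚ) < q := by exact_mod_cast hq0
    exact Rat.num_pos.2 this
  obtain ⟨a, ha⟩ := Int.eq_ofNat_of_zero_le hnum.le
  have ha1 : 1 ≤ a := by
    have : (0 : ℤ) < a := ha ▸ hnum
    omega
  set b : ℕ := q.den with hb
  have hb1 : 1 ≤ b := q.pos
  have hqe : (q : ℝ) = a / b := by
    have h1 : (q : ℝ) = q.num / q.den := by exact_mod_cast (Rat.num_div_den q).symm
    rw [h1, ha]
    rfl
  have ha0 : (a : ℝ) ≠ 0 := by exact_mod_cast (Nat.one_le_iff_ne_zero.1 ha1)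
  have hb0 : (b : ℝ) ≠ 0 := by exact_mod_cast (Nat.one_le_iff_ne_zero.1 hb1)
  have hw0 : (w : ℝ) ≠ 0 := by exact_mod_cast (Nat.one_le_iff_ne_zero.1 hw)
  have hd0 : (d : ℝ) ≠ 0 := by exact_mod_cast (Nat.one_le_iff_ne_zero.1 hd)
  -- the new combination
  set n' : Fin K → ℤ := fun e => b * w * n e - b * d * n₀ e with hn'
  have key : RelAmple X Z f (Bd.lin L (u • n')) := by
    refine h n' (a * d * w) (Nat.mul_pos (Nat.mul_pos ha1 hd) hw) fun e => ?_
    have e1 : (n' e * c e : ℝ) / ((a * d * w : ℕ) : ℝ) - ρ e =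
        (((n e * c e : ℝ) / d - (lam * ρ e + θ e)) - ((n₀ e * c e : ℝ) / w - θ e) -
          ((q : ℝ) - lam) * ρ e) / q := by
      rw [hqe]
      simp only [hn']
      push_cast
      field_simp
      ring
    rw [e1, abs_div, abs_of_pos hq0, div_lt_iff₀ hq0]
    have h1 : |((q : ℝ) - lam) * ρ e| ≤ η := by
      rw [abs_mul]
      calc _ ≤ η / C * C := mul_le_mul hqa (hC' e) (abs_nonneg _) (by positivity)
        _ = η := by field_simp
    have h2 := hn e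
    have h3 := hθ' e
    have h4 : |((n e * c e : ℝ) / d - (lam * ρ e + θ e)) - ((n₀ e * c e : ℝ) / w - θ e) -
        ((q : ℝ) - lam) * ρ e| ≤ |(n e * c e : ℝ) / d - (lam * ρ e + θ e)| +
        |(n₀ e * c e : ℝ) / w - θ e| + |((q : ℝ) - lam) * ρ e| :=
      (abs_sub _ _).trans (add_le_add_left (abs_sub _ _) _)
    have h5 : lam * ε < ε * q := by
      rw [mul_comm]
      exact mul_lt_mul_of_pos_left hq1 hε
    have h6 : 16 * η = lam * ε := by rw [hη]; ring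
    linarith
  refine relAmple_twist hf hL (n := u • n') (n' := u • n) (n₀ := (-(u * (b * d)) : ℤ) • n₀)
    (a := b * w) (Nat.mul_pos hb1 hw) (fun e => ?_) (hn₀.smul _) key
  show u * (b * w * n e - b * d * n₀ e) = ((b * w : ℕ) : ℤ) * (u * n e) + -(u * (b * d)) * n₀ e
  push_cast
  ring

/-- Twisting a flip by a relatively trivial real combination. -/
theorem isFlipR_twist {c c' : Fin K → ℕ} {ρ θ : Fin K → ℝ}
    (h : IsFlipR X Z X' f f' A L L' c c' ρ) (hθ : θ ∈ RT X Z f L c) (hθ' : θ ∈ RT X' Z f' L' c')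
    {lam : ℝ} (hlam : 0 < lam) :
    IsFlipR X Z X' f f' A L L' c c' (fun e => lam * ρ e + θ e) where
  normal := h.normal
  normalZ := h.normalZ
  normal' := h.normal'
  small := h.small
  small' := h.small'
  ninj := h.ninj
  ninj' := h.ninj'
  lb := h.lb
  lb' := h.lb'
  iso := h.iso
  ample := by
    have h1 := ample_twist (u := -1) h.small.cont h.lb hθ hlam (by
      obtain ⟨ε, hε, h2⟩ := h.ample
      refine ⟨ε, hε, fun n d hd hn => ?_⟩
      have h3 := h2 n d hd hn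
      rwa [inv_lin, ← neg_one_smul ℤ n] at h3)
    obtain ⟨ε, hε, h2⟩ := h1
    refine ⟨ε, hε, fun n d hd hn => ?_⟩
    rw [inv_lin, ← neg_one_smul ℤ n]
    exact h2 n d hd hn
  ample' := by
    have h1 := ample_twist (u := 1) h.small'.cont h.lb' hθ' hlam (by
      obtain ⟨ε, hε, h2⟩ := h.ample'
      refine ⟨ε, hε, fun n d hd hn => ?_⟩
      rw [one_smul]
      exact h2 n d hd hn)
    obtain ⟨ε, hε, h2⟩ := h1
    refine ⟨ε, hε, fun n d hd hn => ?_⟩
    have h3 := h2 n d hd hn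
    rwa [one_smul] at h3

end Vale.Agent.P277.H29.CY
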